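import Vale.Agent.P344.Main1

/-! # P344: the number of additions -/

namespace P344

open Finset

section

variable {n s : ℕ} (C : Circuit n s)

/-- `v` does not vanish on `I` -/
def nz (I : Finset (Fin n)) (v : Fin n → ℂ) : Prop := ∃ l ∈ I, v l ≠ 0

/-- the support of `v` in `I` is `{i}` -/
def single (I : Finset (Fin n)) (i : Fin n) (v : Fin n → ℂ) : Prop :=
  v i ≠ 0 ∧ ∀ l ∈ I, l ≠ i → v l = 0

/-- an addition gate with two operands not vanishing on `I` -/
def act (I : Finset (Fin n)) {m : ℕ} : Gate m → Prop
  | .add a b => nz I (co C a) ∧ nz I (co C b)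
  | .sub a b => nz I (co C a) ∧ nz I (co C b)
  | .smul _ _ => False

/-- an addition gate with an operand supported at `i` -/
def touch (I : Finset (Fin n)) (i : Fin n) {m : ℕ} : Gate m → Prop
  | .add a b => single I i (co C a) ∨ single I i (co C b)
  | .sub a b => single I i (co C a) ∨ single I i (co C b)
  | .smul _ _ => False

theorem nz_erase {I : Finset (Fin n)} {i : Fin n} {v : Fin n → ℂ} (h : nz (I.erase i) v) :
    nz I v ∧ ¬ single I i v := by
  obtain ⟨l, hl, hv⟩ := h
  rw [Finset.mem_erase] at hl
  exact ⟨⟨l, hl.2, hv⟩, fun h => hv (h.2 l hl.2 hl.1)⟩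

theorem act_erase {I : Finset (Fin n)} {i : Fin n} {m : ℕ} {g : Gate m}
    (h : act C (I.erase i) g) : act C I g ∧ ¬ touch C I i g := by
  cases g with
  | add a b =>
    simp only [act, touch] at *
    exact ⟨⟨(nz_erase h.1).1, (nz_erase h.2).1⟩, by
      rintro (h1 | h1)
      · exact (nz_erase h.1).2 h1
      · exact (nz_erase h.2).2 h1⟩
  | sub a b =>
    simp only [act, touch] at *
    exact ⟨⟨(nz_erase h.1).1, (nz_erase h.2).1⟩, by
      rintro (h1 | h1)
      · exact (nz_erase h.1).2 h1
      · exact (nz_erase h.2).2 h1⟩
  | smul z a => exact absurd h (by simp [act])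

open Classical in
/-- the active additions -/
noncomputable def N (I : Finset (Fin n)) : Finset (Fin s) :=
  Finset.univ.filter fun t => act C I (C.gate t)

theorem mem_N {I : Finset (Fin n)} {t : Fin s} : t ∈ N C I ↔ act C I (C.gate t) := by
  simp [N]

theorem N_erase {I : Finset (Fin n)} {i : Fin n} {t t' : Fin s} (ht : t ∈ N C I)
    (ht' : t' ∈ N C I) (hne : t ≠ t') (h1 : touch C I i (C.gate t))
    (h2 : touch C I i (C.gate t')) : (N C (I.erase i)).card + 2 ≤ (N C I).card := by
  have hsub : N C (I.erase i) ⊆ (N C I) \ {t, t'} := by
    intro u hu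
    simp only [N, Finset.mem_filter, Finset.mem_univ, true_and] at hu
    have h := act_erase C hu
    simp only [N, Finset.mem_sdiff, Finset.mem_filter, Finset.mem_univ, true_and,
      Finset.mem_insert, Finset.mem_singleton]
    refine ⟨h.1, ?_⟩
    rintro (rfl | rfl)
    · exact h.2 h1
    · exact h.2 h2
  have h3 := Finset.card_le_card hsub
  have h4 : ({t, t'} : Finset (Fin s)) ⊆ N C I := by
    intro u hu
    simp only [Finset.mem_insert, Finset.mem_singleton] at hu
    rcases hu with rfl | rfl
    · exact ht
    · exact ht'
  rw [Finset.card_sdiff_of_subset h4, Finset.card_pair hne] at h3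
  have h5 := Finset.card_le_card h4
  rw [Finset.card_pair hne] at h5
  omega

/-- proportionality of the two coordinates `i`, `i'` -/
def prp (i i' : Fin n) (α β : ℂ) (v : Fin n → ℂ) : Prop := v i * β = v i' * α

theorem invariant {I : Finset (Fin n)} {i i' : Fin n} (hii : i ≠ i') (hi : i ∈ I) (hi' : i' ∈ I)
    (t : Fin s) {α β : ℂ}
    (hα : co C (n + 1 + t) i = α) (hβ : co C (n + 1 + t) i' = β)
    (hU : ∀ u ∈ N C I, u ≠ t → ¬ touch C I i (C.gate u) ∧ ¬ touch C I i' (C.gate u)) :
    ∀ p : ℕ, p < n + 1 + s → single I i (co C p) ∨ single I i' (co C p) ∨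
      prp i i' α β (co C p) := by
  intro p
  induction p using Nat.strong_induction_on with
  | _ p ih =>
    intro hp
    rcases Nat.lt_trichotomy p n with h1 | h1 | h1
    · have e := co_input C ⟨p, h1⟩
      simp only at e
      rw [e]
      by_cases h2 : (⟨p, h1⟩ : Fin n) = i
      · left
        rw [h2]
        exact ⟨by simp, fun l _ hl => by simp [hl]⟩
      · by_cases h3 : (⟨p, h1⟩ : Fin n) = i'
        · right; left
          rw [h3]
          exact ⟨by simp, fun l _ hl => by simp [hl]⟩
        · right; right
          simp [prp, Ne.symm h2, Ne.symm h3]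
    · subst h1
      right; right
      rw [co_zero]
      simp [prp]
    · obtain ⟨u, rfl⟩ : ∃ u, p = n + 1 + u := ⟨p - (n + 1), by omega⟩
      have hu : u < s := by omega
      have hg := co_gate C ⟨u, hu⟩
      simp only at hg
      by_cases htu : (⟨u, hu⟩ : Fin s) = t
      · right; right
        have e : n + 1 + u = n + 1 + (t : ℕ) := by rw [← htu]
        rw [e]
        unfold prp
        rw [hα, hβ, mul_comm]
      · have hUu := hU ⟨u, hu⟩
        -- zero operands
        have key : ∀ (a b : Fin (n + 1 + u)) (ε : ℂ), ε ≠ 0 →
            (nz I (co C a) ∧ nz I (co C b) → ¬ single I i (co C a) ∧ ¬ single I i (co C b) ∧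
              ¬ single I i' (co C a) ∧ ¬ single I i' (co C b)) →
            single I i (co C a + ε • co C b) ∨ single I i' (co C a + ε • co C b) ∨
              prp i i' α β (co C a + ε • co C b) := by
          intro a b ε hε hab
          have ha := ih a a.2 (by omega)
          have hb := ih b b.2 (by omega)
          by_cases hna : nz I (co C a)
          · by_cases hnb : nz I (co C b)
            · obtain ⟨k1, k2, k3, k4⟩ := hab ⟨hna, hnb⟩
              have ha' : prp i i' α β (co C a) := by
                rcases ha with h | h | h
                · exact absurd h k1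
                · exact absurd h k3
                · exact h
              have hb' : prp i i' α β (co C b) := by
                rcases hb with h | h | h
                · exact absurd h k2
                · exact absurd h k4
                · exact h
              right; right
              unfold prp at *
              simp only [Pi.add_apply, Pi.smul_apply, smul_eq_mul]
              linear_combination ha' + ε * hb'
            · have hz : ∀ l ∈ I, co C b l = 0 := by
                intro l hl
                by_contra hc
                exact hnb ⟨l, hl, hc⟩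
              have hs : ∀ l ∈ I, (co C a + ε • co C b) l = co C a l := by
                intro l hl
                simp [hz l hl]
              rcases ha with h | h | h
              · left
                exact ⟨by rw [hs i hi]; exact h.1, fun l hl hne => by
                  rw [hs l hl]; exact h.2 l hl hne⟩
              · right; left
                exact ⟨by rw [hs i' hi']; exact h.1, fun l hl hne => by
                  rw [hs l hl]; exact h.2 l hl hne⟩
              · right; right
                unfold prp at *
                rw [hs i hi, hs i' hi']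
                exact h
          · have hz : ∀ l ∈ I, co C a l = 0 := by
              intro l hl
              by_contra hc
              exact hna ⟨l, hl, hc⟩
            have hs : ∀ l ∈ I, (co C a + ε • co C b) l = ε * co C b l := by
              intro l hl
              simp [hz l hl]
            rcases hb with h | h | h
            · left
              exact ⟨by rw [hs i hi]; exact mul_ne_zero hε h.1, fun l hl hne => by
                rw [hs l hl, h.2 l hl hne, mul_zero]⟩
            · right; left
              exact ⟨by rw [hs i' hi']; exact mul_ne_zero hε h.1, fun l hl hne => by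
                rw [hs l hl, h.2 l hl hne, mul_zero]⟩
            · right; right
              unfold prp at *
              rw [hs i hi, hs i' hi']
              linear_combination ε * h
        rw [hg]
        cases hgt : C.gate ⟨u, hu⟩ with
        | add a b =>
          simp only [Gate.eval]
          have h2 := key a b 1 one_ne_zero fun hab => by
            have h3 : (⟨u, hu⟩ : Fin s) ∈ N C I := by
              rw [mem_N, hgt]
              exact hab
            have h4 := hUu h3 htu
            rw [hgt] at h4
            simp only [touch, not_or] at h4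
            exact ⟨h4.1.1, h4.1.2, h4.2.1, h4.2.2⟩
          rwa [one_smul] at h2
        | sub a b =>
          simp only [Gate.eval]
          have h2 := key a b (-1) (by norm_num) fun hab => by
            have h3 : (⟨u, hu⟩ : Fin s) ∈ N C I := by
              rw [mem_N, hgt]
              exact hab
            have h4 := hUu h3 htu
            rw [hgt] at h4
            simp only [touch, not_or] at h4
            exact ⟨h4.1.1, h4.1.2, h4.2.1, h4.2.2⟩
          rwa [neg_one_smul, ← sub_eq_add_neg] at h2
        | smul z a =>
          simp only [Gate.eval]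
          have ha := ih a a.2 (by have := a.2; omega)
          by_cases hz : z = 0
          · subst hz
            right; right
            simp [prp]
          · rcases ha with h | h | h
            · left
              exact ⟨by simpa [hz] using h.1, fun l hl hne => by simp [h.2 l hl hne]⟩
            · right; left
              exact ⟨by simpa [hz] using h.1, fun l hl hne => by simp [h.2 l hl hne]⟩
            · right; right
              unfold prp at *
              simp only [Pi.smul_apply, smul_eq_mul]
              linear_combination z * h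

/-- one elimination step -/
theorem step (hC : C.IsDFT) (hn : 2 ≤ n) {I : Finset (Fin n)} (hI : 2 ≤ I.card) :
    ∃ i ∈ I, (N C (I.erase i)).card + 2 ≤ (N C I).card := by
  classical
  have hn0 : n ≠ 0 := by omega
  -- the first value with two coordinates
  let P : ℕ → Prop := fun p => p < n + 1 + s ∧ ∃ l ∈ I, ∃ l' ∈ I, l ≠ l' ∧ co C p l ≠ 0 ∧
    co C p l' ≠ 0
  obtain ⟨l1, hl1, l2, hl2, hl12⟩ := Finset.one_lt_card.mp (show 1 < I.card by omega)
  have hout : ∀ j k : Fin n, co C (C.out j) k ≠ 0 := by
    intro j k
    rw [co_out C hC]
    exact pow_ne_zero _ ((zt_prim hn0).ne_zero hn0)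
  have hP : ∃ p, P p := ⟨C.out ⟨0, by omega⟩, (C.out ⟨0, by omega⟩).2, l1, hl1, l2, hl2, hl12,
    hout _ _, hout _ _⟩
  obtain ⟨hp1, i, hi, i', hi', hii, hα, hβ⟩ := Nat.find_spec hP
  have hmin : ∀ q, q < Nat.find hP → ¬ P q := fun q hq => Nat.find_min hP hq
  set p := Nat.find hP with hpdef
  -- the value is computed by a gate
  have hpn : n + 1 ≤ p := by
    by_contra hc
    rcases Nat.lt_or_ge p n with h1 | h1
    · have e := co_input C ⟨p, h1⟩
      simp only at e
      rw [e] at hα hβ
      have h2 : i = ⟨p, h1⟩ := by
        by_contra h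
        exact hα (by simp [h])
      have h3 : i' = ⟨p, h1⟩ := by
        by_contra h
        exact hβ (by simp [h])
      exact hii (h2.trans h3.symm)
    · have h2 : p = n := by omega
      rw [h2, co_zero] at hα
      exact hα rfl
  obtain ⟨u, hu⟩ : ∃ u, p = n + 1 + u := ⟨p - (n + 1), by omega⟩
  have hus : u < s := by omega
  have hg := co_gate C ⟨u, hus⟩
  simp only at hg
  rw [hu] at hα hβ hmin
  have hmin' : ∀ a : Fin (n + 1 + u), ∀ l ∈ I, ∀ l' ∈ I, l ≠ l' → co C a l ≠ 0 →
      co C a l' = 0 := by
    intro a l hl l' hl' hne h1
    by_contra h2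
    exact hmin a a.2 ⟨by have := a.2; omega, l, hl, l', hl', hne, h1, h2⟩
  -- the operands
  have hops : ∀ (a b : Fin (n + 1 + u)) (ε : ℂ), co C (n + 1 + u) = co C a + ε • co C b →
      (nz I (co C a) ∧ nz I (co C b)) ∧ (single I i (co C a) ∨ single I i (co C b)) ∧
        (single I i' (co C a) ∨ single I i' (co C b)) := by
    intro a b ε hab
    have sing : ∀ (c : Fin (n + 1 + u)) (l : Fin n), l ∈ I → co C c l ≠ 0 →
        single I l (co C c) := by
      intro c l hl hc
      exact ⟨hc, fun l' hl' hne => hmin' c l hl l' hl' (Ne.symm hne) hc⟩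
    rw [hab] at hα hβ
    simp only [Pi.add_apply, Pi.smul_apply, smul_eq_mul] at hα hβ
    by_cases ha : co C a i = 0
    · have hb : co C b i ≠ 0 := by
        intro hb
        rw [ha, hb] at hα
        simp at hα
      have hb' : co C b i' = 0 := hmin' b i hi i' hi' hii hb
      have ha' : co C a i' ≠ 0 := by
        intro h
        rw [h, hb'] at hβ
        simp at hβ
      exact ⟨⟨⟨i', hi', ha'⟩, ⟨i, hi, hb⟩⟩, Or.inr (sing b i hi hb), Or.inl (sing a i' hi' ha')⟩
    · have ha' : co C a i' = 0 := hmin' a i hi i' hi' hii ha
      have hb' : co C b i' ≠ 0 := by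
        intro h
        rw [h, ha'] at hβ
        simp at hβ
      exact ⟨⟨⟨i, hi, ha⟩, ⟨i', hi', hb'⟩⟩, Or.inl (sing a i hi ha), Or.inr (sing b i' hi' hb')⟩
  have ht : (⟨u, hus⟩ : Fin s) ∈ N C I ∧ touch C I i (C.gate ⟨u, hus⟩) ∧
      touch C I i' (C.gate ⟨u, hus⟩) := by
    rw [mem_N]
    cases hgt : C.gate ⟨u, hus⟩ with
    | add a b =>
      rw [hgt] at hg
      simp only [Gate.eval] at hg
      exact hops a b 1 (by rw [hg, one_smul])
    | sub a b =>
      rw [hgt] at hg
      simp only [Gate.eval] at hg
      exact hops a b (-1) (by rw [hg, neg_one_smul, sub_eq_add_neg])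
    | smul z a =>
      exfalso
      rw [hgt] at hg
      simp only [Gate.eval] at hg
      rw [hg] at hα hβ
      simp only [Pi.smul_apply, smul_eq_mul] at hα hβ
      exact right_ne_zero_of_mul hβ
        (hmin' a i hi i' hi' hii (right_ne_zero_of_mul hα))
  by_cases h1 : ∃ t' ∈ N C I, t' ≠ ⟨u, hus⟩ ∧ touch C I i (C.gate t')
  · obtain ⟨t', h2, h3, h4⟩ := h1
    exact ⟨i, hi, N_erase C ht.1 h2 (Ne.symm h3) ht.2.1 h4⟩
  by_cases h1' : ∃ t' ∈ N C I, t' ≠ ⟨u, hus⟩ ∧ touch C I i' (C.gate t')
  · obtain ⟨t', h2, h3, h4⟩ := h1'
    exact ⟨i', hi', N_erase C ht.1 h2 (Ne.symm h3) ht.2.2 h4⟩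
  exfalso
  push Not at h1 h1'
  have hinv := invariant C hii hi hi' ⟨u, hus⟩ rfl rfl
    (fun t' h2 h3 => ⟨h1 t' h2 h3, h1' t' h2 h3⟩)
  have hprop : ∀ j : Fin n, prp i i' (co C (n + 1 + u) i) (co C (n + 1 + u) i')
      (co C (C.out j)) := by
    intro j
    rcases hinv (C.out j) (C.out j).2 with h | h | h
    · exact absurd (h.2 i' hi' (Ne.symm hii)) (hout j i')
    · exact absurd (h.2 i hi hii) (hout j i)
    · exact h
  have h5 := hprop ⟨0, by omega⟩
  have h6 := hprop ⟨1, by omega⟩
  unfold prp at h5 h6
  rw [co_out C hC, co_out C hC] at h5 h6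
  simp only [zero_mul, pow_zero, one_mul] at h5 h6
  rw [h5] at h6
  have h7 := mul_right_cancel₀ hα h6
  exact hii (Fin.ext ((zt_prim hn0).pow_inj i.2 i'.2 h7))

/-- at least `2n - 2` additions and subtractions -/
theorem adds (hC : C.IsDFT) (hn : 2 ≤ n) : ∀ (k : ℕ) (I : Finset (Fin n)), I.card = k + 1 →
    2 * k ≤ (N C I).card := by
  intro k
  induction k with
  | zero => intro I _; omega
  | succ k ih =>
    intro I hI
    obtain ⟨i, hi, h⟩ := step C hC hn (I := I) (by omega)
    have h1 := ih (I.erase i) (by rw [Finset.card_erase_of_mem hi]; omega)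
    omega

open Classical in
/-- at least `2n - 2` additions and subtractions -/
theorem main2 (hC : C.IsDFT) (hn : 2 ≤ n) :
    2 * n - 2 ≤ (Finset.univ.filter fun t => (C.gate t).IsAdd).card := by
  have h := adds C hC hn (n - 1) Finset.univ (by simp; omega)
  refine le_trans (by omega) (h.trans (Finset.card_le_card ?_))
  intro t ht
  rw [mem_N] at ht
  simp only [Finset.mem_filter, Finset.mem_univ, true_and]
  cases hgt : C.gate t with
  | add a b => simp [Gate.IsAdd]
  | sub a b => simp [Gate.IsAdd]
  | smul z a =>
    rw [hgt] at ht
    exact absurd ht (by simp [act])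

end

end P344
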