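import Vale.Agent.P344.Adds

/-! # P344: asymptotic consequences -/

namespace P344

open Finset Filter Topology
open scoped Nat

section

variable {n s : ℕ} (C : Circuit n s)

open Classical in
/-- the multiplications by numbers of modulus greater than `B` -/
noncomputable def big (B : ℝ) : Finset (Fin s) := Finset.univ.filter fun t => (C.gate t).IsBig B

theorem growth_le {m : ℕ} (g : Gate m) {B : ℝ} (hB : 2 ≤ B) (h : ¬ g.IsBig B) :
    g.growth ≤ B := by
  cases g with
  | add a b => exact hB
  | sub a b => exact hB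
  | smul z a =>
    simp only [Gate.IsBig, not_lt] at h
    simp only [Gate.growth]
    exact max_le (by linarith) h

theorem log_bound (hn : n ≠ 0) (hC : C.IsDFT) {B : ℝ} (hB : 2 ≤ B) {x : ℝ} (hx : 0 < x)
    (hk : x ≤ n - (big C B).card) (hx1 : 1 ≤ Real.log x) :
    x * (Real.log x - 1) ≤ 2 * s * Real.log B := by
  have hcard : (big C B).card ≤ n := by
    by_contra h
    have : (n : ℝ) - (big C B).card ≤ 0 := by
      have : (n : ℝ) ≤ (big C B).card := by exact_mod_cast (by omega : n ≤ (big C B).card)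
      linarith
    linarith
  have h1 := main1 hn C hC (big C B) hcard
  set k := n - (big C B).card with hkdef
  have hk' : x ≤ (k : ℝ) := by
    rw [hkdef, Nat.cast_sub hcard]
    exact hk
  have hk0 : (0 : ℝ) < k := lt_of_lt_of_le hx hk'
  have h2 : ∏ t ∈ (big C B)ᶜ, (C.gate t).growth ≤ B ^ s := by
    calc ∏ t ∈ (big C B)ᶜ, (C.gate t).growth ≤ ∏ _t ∈ (big C B)ᶜ, B := by
          refine Finset.prod_le_prod (fun t _ => zero_le_one.trans (growth_ge _)) fun t ht => ?_
          refine growth_le _ hB ?_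
          intro h
          rw [Finset.mem_compl] at ht
          exact ht (by simp [big, h])
      _ = B ^ ((big C B)ᶜ).card := by rw [Finset.prod_const]
      _ ≤ B ^ s := by
          refine pow_le_pow_right₀ (by linarith) ?_
          refine (Finset.card_le_univ _).trans ?_
          simp
  have h3 : ((k ! : ℕ) : ℝ) ≤ B ^ (2 * s) := by
    refine h1.trans ?_
    rw [mul_comm 2 s, pow_mul]
    exact pow_le_pow_left₀ (Finset.prod_nonneg fun t _ => zero_le_one.trans (growth_ge _)) h2 2
  have h4 := Real.pow_div_factorial_le_exp (k : ℝ) hk0.le k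
  have h5 : (0 : ℝ) < (k ! : ℕ) := by exact_mod_cast Nat.factorial_pos k
  have h6 : (k : ℝ) ^ k ≤ Real.exp k * B ^ (2 * s) := by
    rw [div_le_iff₀ h5] at h4
    exact h4.trans (mul_le_mul_of_nonneg_left h3 (Real.exp_nonneg _))
  have h7 : (k : ℝ) * Real.log k ≤ k + 2 * s * Real.log B := by
    have h8 := Real.log_le_log (by positivity) h6
    rw [Real.log_pow, Real.log_mul (Real.exp_ne_zero _) (by positivity), Real.log_exp,
      Real.log_pow] at h8
    push_cast at h8
    linarith
  have h8 : Real.log x ≤ Real.log k := Real.log_le_log hx hk'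
  calc x * (Real.log x - 1) ≤ k * (Real.log k - 1) :=
        mul_le_mul hk' (by linarith) (by linarith) hk0.le
    _ ≤ 2 * s * Real.log B := by linarith

end

/-- a circuit in which at most `(1 - ε) n` multiplications have modulus greater than `B` -/
theorem corA (ε B : ℝ) (hε : 0 < ε) (hB : 2 ≤ B) : ∀ᶠ n : ℕ in atTop, ∀ (s : ℕ)
    (C : Circuit n s), C.IsDFT → ((big C B).card : ℝ) ≤ (1 - ε) * n →
    ε / (4 * Real.log B) * (n * Real.log n) ≤ s := by
  have hlog : Tendsto (fun n : ℕ => Real.log n) atTop atTop :=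
    Real.tendsto_log_atTop.comp tendsto_natCast_atTop_atTop
  filter_upwards [hlog.eventually_ge_atTop (2 * (1 - Real.log ε)),
    hlog.eventually_ge_atTop (1 - Real.log ε), eventually_ge_atTop 1] with n h1 h2 hn s C hC hbig
  have hn0 : (0 : ℝ) < n := by exact_mod_cast hn
  have hx : 0 < ε * n := by positivity
  have hlx : Real.log (ε * n) = Real.log ε + Real.log n :=
    Real.log_mul hε.ne' hn0.ne'
  have h3 := log_bound C (by omega) hC hB hx (by linarith) (by rw [hlx]; linarith)
  rw [hlx] at h3
  have hB0 : 0 < Real.log B := Real.log_pos (by linarith)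
  have h4 : Real.log n / 2 ≤ Real.log ε + Real.log n - 1 := by linarith
  have h5 := mul_le_mul_of_nonneg_left h4 hx.le
  rw [div_mul_eq_mul_div, div_le_iff₀ (by positivity)]
  nlinarith

/-- linear size forces almost `n` multiplications of polynomially large modulus -/
theorem corB (K δ ε : ℝ) (hK : 0 < K) (hδ : 0 < δ) (hε : 0 < ε) : ∀ᶠ n : ℕ in atTop, ∀ (s : ℕ)
    (C : Circuit n s), C.IsDFT → (s : ℝ) ≤ K * n →
    (1 - 2 * K * δ - ε) * n ≤ (big C ((n : ℝ) ^ δ)).card := by
  have hlog : Tendsto (fun n : ℕ => Real.log n) atTop atTop :=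
    Real.tendsto_log_atTop.comp tendsto_natCast_atTop_atTop
  set θ := 2 * K * δ + ε with hθ
  have hθ0 : 0 < θ := by positivity
  filter_upwards [hlog.eventually_gt_atTop (θ * (1 - Real.log θ) / ε),
    hlog.eventually_ge_atTop (1 - Real.log θ), hlog.eventually_ge_atTop (Real.log 2 / δ),
    eventually_ge_atTop 1] with n h1 h2 h3 hn s C hC hs
  have hn0 : (0 : ℝ) < n := by exact_mod_cast hn
  by_contra hcon
  push Not at hcon
  have hx : 0 < θ * n := by positivity
  have hlx : Real.log (θ * n) = Real.log θ + Real.log n :=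
    Real.log_mul hθ0.ne' hn0.ne'
  have hlB : Real.log ((n : ℝ) ^ δ) = δ * Real.log n := Real.log_rpow hn0 δ
  have hB : (2 : ℝ) ≤ (n : ℝ) ^ δ := by
    rw [← Real.log_le_log_iff (by norm_num) (by positivity), hlB]
    rw [div_le_iff₀ hδ] at h3
    linarith
  have hxk : θ * n ≤ n - (big C ((n : ℝ) ^ δ)).card := by
    rw [hθ]
    linarith
  have h4 := log_bound C (by omega) hC hB hx hxk (by rw [hlx]; linarith)
  rw [hlx, hlB] at h4
  have hlog0 : 0 ≤ Real.log n := Real.log_natCast_nonneg n
  have h5 : 2 * (s : ℝ) * (δ * Real.log n) ≤ 2 * (K * n) * (δ * Real.log n) := by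
    have : 0 ≤ δ * Real.log n := by positivity
    nlinarith
  rw [div_lt_iff₀ hε] at h1
  have h6 : n * (ε * Real.log n) ≤ n * (θ * (1 - Real.log θ)) := by
    have : θ * n * (Real.log θ + Real.log n - 1) ≤ 2 * (K * n) * (δ * Real.log n) := h4.trans h5
    rw [hθ] at this ⊢
    nlinarith
  have h7 := le_of_mul_le_mul_left h6 hn0
  linarith

open Classical in
/-- `L(n) ≥ (3 - ε) n` -/
theorem corC (ε : ℝ) (hε : 0 < ε) : ∀ᶠ n : ℕ in atTop, ∀ (s : ℕ)
    (C : Circuit n s), C.IsDFT → (3 - ε) * n ≤ s := by
  have h1 := corB 3 (ε / 24) (ε / 4) (by norm_num) (by positivity) (by positivity)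
  filter_upwards [h1, eventually_ge_atTop 2, eventually_ge_atTop (Nat.ceil (4 / ε))]
    with n h1 hn hn2 s C hC
  by_contra hcon
  push Not at hcon
  have hn0 : (0 : ℝ) < n := by
    have : 0 < n := by omega
    exact_mod_cast this
  have hbig := h1 s C hC (by nlinarith)
  have hadd := main2 C hC hn
  have hdisj : Disjoint (big C ((n : ℝ) ^ (ε / 24)))
      (Finset.univ.filter fun t => (C.gate t).IsAdd) := by
    rw [Finset.disjoint_left]
    intro t ht ht'
    simp only [big, Finset.mem_filter, Finset.mem_univ, true_and] at ht ht'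
    cases hgt : C.gate t with
    | add a b => rw [hgt] at ht; exact ht
    | sub a b => rw [hgt] at ht; exact ht
    | smul z a => rw [hgt] at ht'; exact ht'
  have hcard := Finset.card_le_univ ((big C ((n : ℝ) ^ (ε / 24))).disjUnion _ hdisj)
  rw [Finset.card_disjUnion, Fintype.card_fin] at hcard
  have h2 : ((big C ((n : ℝ) ^ (ε / 24))).card : ℝ) + (2 * n - 2) ≤ s := by
    have h3 : (big C ((n : ℝ) ^ (ε / 24))).card + (2 * n - 2) ≤ s := by omega
    have h4 : (((big C ((n : ℝ) ^ (ε / 24))).card + (2 * n - 2) : ℕ) : ℝ) ≤ s := by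
      exact_mod_cast h3
    rw [Nat.cast_add, Nat.cast_sub (by omega)] at h4
    push_cast at h4
    linarith
  have h5 : 4 / ε ≤ n := (Nat.le_ceil _).trans (by exact_mod_cast hn2)
  rw [div_le_iff₀ hε] at h5
  nlinarith

theorem card_add {n s : ℕ} (C : Circuit n s) [DecidablePred fun t => (C.gate t).IsAdd] :
    Nat.card {t // (C.gate t).IsAdd} = (Finset.univ.filter fun t => (C.gate t).IsAdd).card := by
  rw [Nat.card_eq_fintype_card, Fintype.card_subtype]

theorem card_big {n s : ℕ} (C : Circuit n s) (B : ℝ) :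
    Nat.card {t // (C.gate t).IsBig B} = (big C B).card := by
  classical
  rw [Nat.card_eq_fintype_card, Fintype.card_subtype]
  unfold big
  congr

end P344
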