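import Vale.Agent.P344.Model

/-! # P344: the coefficient vectors of a circuit -/

namespace P344

open Finset

section

variable {n s : ℕ} (C : Circuit n s) {V W : Type} [AddCommGroup V] [Module ℂ V]
  [AddCommGroup W] [Module ℂ W]

theorem eval_map {m : ℕ} (φ : V →ₗ[ℂ] W) (v : Fin m → V) (g : Gate m) :
    g.eval (fun i => φ (v i)) = φ (g.eval v) := by
  cases g <;> simp [Gate.eval]

theorem vals_map (φ : V →ₗ[ℂ] W) (x : Fin n → V) : ∀ (t : ℕ) (h : t ≤ s) (k : Fin (n + 1 + t)),
    C.vals (fun i => φ (x i)) t h k = φ (C.vals x t h k) := by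
  intro t
  induction t with
  | zero =>
    intro h k
    simp only [Circuit.vals]
    refine Fin.lastCases ?_ (fun k => ?_) k
    · rw [Fin.snoc_last, Fin.snoc_last, map_zero]
    · rw [Fin.snoc_castSucc, Fin.snoc_castSucc]
  | succ t ih =>
    intro h k
    have e : C.vals (fun i => φ (x i)) t (Nat.le_of_succ_le h) =
        fun k => φ (C.vals x t (Nat.le_of_succ_le h) k) := funext fun k => ih _ k
    simp only [Circuit.vals]
    rw [e]
    refine Fin.lastCases ?_ (fun k => ?_) k
    · rw [Fin.snoc_last, Fin.snoc_last, eval_map]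
    · rw [Fin.snoc_castSucc, Fin.snoc_castSucc]

theorem vals_stable (x : Fin n → V) (t : ℕ) : ∀ (t' : ℕ) (h : t ≤ s) (h' : t' ≤ s), t ≤ t' →
    ∀ (k : ℕ) (hk : k < n + 1 + t) (hk' : k < n + 1 + t'),
      C.vals x t' h' ⟨k, hk'⟩ = C.vals x t h ⟨k, hk⟩ := by
  intro t'
  induction t' with
  | zero =>
    intro h h' ht k hk hk'
    obtain rfl : t = 0 := by omega
    rfl
  | succ u ih =>
    intro h h' ht k hk hk'
    rcases Nat.lt_or_ge t (u + 1) with h1 | h1
    · have hku : k < n + 1 + u := by omega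
      rw [← ih h (Nat.le_of_succ_le h') (by omega) k hk hku]
      have e : (⟨k, hk'⟩ : Fin (n + 1 + (u + 1))) = Fin.castSucc ⟨k, hku⟩ := rfl
      rw [e]
      simp only [Circuit.vals]
      exact Fin.snoc_castSucc (α := fun _ => V) _ _ _
    · obtain rfl : t = u + 1 := by omega
      rfl

/-- the coefficient vectors -/
noncomputable def co (k : ℕ) : Fin n → ℂ :=
  if h : k < n + 1 + s then
    C.vals (fun i : Fin n => (Pi.single i 1 : Fin n → ℂ)) s le_rfl ⟨k, h⟩ else 0

theorem co_input (i : Fin n) : co C i = Pi.single i 1 := by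
  have h : (i : ℕ) < n + 1 + s := by have := i.2; omega
  rw [co, dif_pos h, vals_stable C _ 0 s (Nat.zero_le _) le_rfl (Nat.zero_le _) i
    (by have := i.2; omega) h]
  simp only [Circuit.vals]
  exact Fin.snoc_castSucc (α := fun _ => Fin n → ℂ) (n := n) _ _ i

theorem co_zero : co C n = 0 := by
  have h : n < n + 1 + s := by omega
  rw [co, dif_pos h, vals_stable C _ 0 s (Nat.zero_le _) le_rfl (Nat.zero_le _) n
    (by omega) h]
  simp only [Circuit.vals]
  exact Fin.snoc_last (α := fun _ => Fin n → ℂ) (n := n) _ _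

theorem co_gate (t : Fin s) : co C (n + 1 + t) =
    (C.gate t).eval (fun i : Fin (n + 1 + t) => co C i) := by
  have ht := t.2
  have h : n + 1 + (t : ℕ) < n + 1 + s := by omega
  rw [co, dif_pos h, vals_stable C _ (t + 1) s (by omega) le_rfl (by omega) (n + 1 + t)
    (by omega) h]
  have e : (⟨n + 1 + t, by omega⟩ : Fin (n + 1 + (t + 1))) = Fin.last _ := rfl
  rw [e]
  simp only [Circuit.vals]
  rw [Fin.snoc_last (α := fun _ => Fin n → ℂ)]
  congr 1
  funext i
  have hi := i.2
  rw [co, dif_pos (by omega), vals_stable C _ t s (by omega) le_rfl (by omega) i hi (by omega)]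

/-- the outputs are rows of the Fourier matrix -/
theorem co_out (hC : C.IsDFT) (j k : Fin n) : co C (C.out j) k =
    Complex.exp (2 * Real.pi * Complex.I / n) ^ (j.val * k.val) := by
  rw [co, dif_pos (C.out j).2]
  have h := hC (Pi.single k 1) j
  have e : (Pi.single k 1 : Fin n → ℂ) = fun i : Fin n =>
      (LinearMap.proj k : (Fin n → ℂ) →ₗ[ℂ] ℂ) (Pi.single i 1 : Fin n → ℂ) := by
    funext i
    simp [Pi.single_apply, eq_comm]
  rw [e, vals_map C (LinearMap.proj k : (Fin n → ℂ) →ₗ[ℂ] ℂ)] at h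
  simp only [LinearMap.coe_proj, Function.eval] at h
  rw [h]
  simp [Pi.single_apply]

end

end P344
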