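import Vale.Agent.P344.Vol

/-! # P344: the truncated volume inequality -/

namespace P344

open Finset Matrix
open scoped Nat ComplexOrder

/-- the root of unity -/
noncomputable def zt (n : ℕ) : ℂ := Complex.exp (2 * Real.pi * Complex.I / n)

theorem zt_prim {n : ℕ} (hn : n ≠ 0) : IsPrimitiveRoot (zt n) n :=
  Complex.isPrimitiveRoot_exp n hn

theorem zt_norm (n : ℕ) : ‖zt n‖ = 1 := by
  unfold zt
  rw [show (2 * Real.pi * Complex.I / n : ℂ) = ((2 * Real.pi / n : ℝ) : ℂ) * Complex.I by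
    push_cast; ring, Complex.norm_exp_ofReal_mul_I]

theorem orth {n : ℕ} (hn : n ≠ 0) (l l' : Fin n) :
    ∑ m : Fin n, zt n ^ (m.val * l.val) * (starRingEnd ℂ) (zt n ^ (m.val * l'.val)) =
      if l = l' then (n : ℂ) else 0 := by
  have hp := zt_prim hn
  have hz : zt n ≠ 0 := hp.ne_zero hn
  have hc : (starRingEnd ℂ) (zt n) = (zt n)⁻¹ := by
    rw [Complex.inv_def, Complex.normSq_eq_norm_sq, zt_norm]
    simp
  have e : ∀ m : Fin n, zt n ^ (m.val * l.val) * (starRingEnd ℂ) (zt n ^ (m.val * l'.val)) =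
      (zt n ^ l.val * (zt n ^ l'.val)⁻¹) ^ m.val := by
    intro m
    rw [map_pow, hc, mul_pow, inv_pow, inv_pow, ← pow_mul, ← pow_mul, mul_comm l.val,
      mul_comm l'.val]
  simp_rw [e]
  rw [Fin.sum_univ_eq_sum_range (fun m => (zt n ^ l.val * (zt n ^ l'.val)⁻¹) ^ m) n]
  split_ifs with h
  · subst h
    rw [mul_inv_cancel₀ (pow_ne_zero _ hz)]
    simp
  · set ρ := zt n ^ l.val * (zt n ^ l'.val)⁻¹ with hρ
    have h1 : ρ ≠ 1 := by
      intro h1
      have h2 : zt n ^ l.val = zt n ^ l'.val := by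
        rw [hρ, mul_inv_eq_one₀ (pow_ne_zero _ hz)] at h1
        exact h1
      exact h (Fin.ext (hp.pow_inj l.2 l'.2 h2))
    have h2 : ρ ^ n = 1 := by
      rw [hρ, mul_pow, inv_pow, ← pow_mul, ← pow_mul, mul_comm l.val, mul_comm l'.val, pow_mul,
        pow_mul, hp.pow_eq_one]
      simp
    have h3 := mul_geom_sum ρ n
    rw [h2, sub_self] at h3
    exact (mul_eq_zero.mp h3).resolve_left (sub_ne_zero.mpr h1)

/-- vectors orthogonal to few given vectors -/
theorem exists_orth {n h : ℕ} (hh : h ≤ n) {ι : Type} (S : Finset ι) (hS : S.card ≤ h)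
    (v : ι → Fin n → ℂ) : ∃ c : Fin (n - h) → Fin n → ℂ,
      (∀ i i', ∑ l, (starRingEnd ℂ) (c i l) * c i' l = if i = i' then 1 else 0) ∧
      ∀ t ∈ S, ∀ i, pr (c i) (v t) = 0 := by
  classical
  let w : ι → EuclideanSpace ℂ (Fin n) := fun t => WithLp.toLp 2 (v t)
  let W : Submodule ℂ (EuclideanSpace ℂ (Fin n)) := Submodule.span ℂ (S.image w : Finset _)
  have h1 : Module.finrank ℂ W ≤ h :=
    (finrank_span_finset_le_card _).trans (Finset.card_image_le.trans hS)
  have h2 := W.finrank_add_finrank_orthogonal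
  rw [finrank_euclideanSpace_fin] at h2
  have h3 : n - h ≤ Module.finrank ℂ Wᗮ := by omega
  let b := stdOrthonormalBasis ℂ Wᗮ
  refine ⟨fun i l => ((b (Fin.castLE h3 i) : Wᗮ) : EuclideanSpace ℂ (Fin n)) l, ?_, ?_⟩
  · intro i i'
    have h4 := orthonormal_iff_ite.mp b.orthonormal (Fin.castLE h3 i) (Fin.castLE h3 i')
    rw [Submodule.coe_inner] at h4
    simp only [PiLp.inner_apply, RCLike.inner_apply] at h4
    rw [show (∑ l, (starRingEnd ℂ) (((b (Fin.castLE h3 i) : Wᗮ) : EuclideanSpace ℂ (Fin n)) l) *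
      ((b (Fin.castLE h3 i') : Wᗮ) : EuclideanSpace ℂ (Fin n)) l) =
      ∑ l, ((b (Fin.castLE h3 i') : Wᗮ) : EuclideanSpace ℂ (Fin n)) l *
        (starRingEnd ℂ) (((b (Fin.castLE h3 i) : Wᗮ) : EuclideanSpace ℂ (Fin n)) l) from
      Finset.sum_congr rfl fun l _ => mul_comm _ _, h4]
    simp [Fin.ext_iff]
  · intro t ht i
    have h5 : w t ∈ W := Submodule.subset_span (by
      simp only [Finset.coe_image, Set.mem_image]
      exact ⟨t, ht, rfl⟩)
    have h6 := (Submodule.mem_orthogonal W _).mp (b (Fin.castLE h3 i)).2 _ h5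
    have h7 : inner ℂ ((b (Fin.castLE h3 i) : Wᗮ) : EuclideanSpace ℂ (Fin n)) (w t) = 0 := by
      rw [← inner_conj_symm, h6, map_zero]
    simp only [PiLp.inner_apply, RCLike.inner_apply] at h7
    unfold pr
    rw [← h7]
    exact Finset.sum_congr rfl fun l _ => mul_comm _ _

/-- the truncated volume inequality -/
theorem main1 {n s : ℕ} (hn : n ≠ 0) (C : Circuit n s) (hC : C.IsDFT) (H : Finset (Fin s))
    (hH : H.card ≤ n) :
    ((n - H.card)! : ℝ) ≤ (∏ t ∈ Hᶜ, (C.gate t).growth) ^ 2 := by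
  have hex := exists_orth hH H le_rfl (fun t : Fin s => co C (n + 1 + t))
  generalize n - H.card = k at hex ⊢
  obtain ⟨c, hc, hc0⟩ := hex
  have hc1 : ∀ i, ∑ l, ‖c i l‖ ^ 2 ≤ 1 := by
    intro i
    have h1 := hc i i
    rw [if_pos rfl] at h1
    have h2 : ∑ l, (starRingEnd ℂ) (c i l) * c i l = ((∑ l, ‖c i l‖ ^ 2 : ℝ) : ℂ) := by
      push_cast
      refine Finset.sum_congr rfl fun l _ => ?_
      rw [mul_comm, Complex.mul_conj, Complex.normSq_eq_norm_sq]
      push_cast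
      rfl
    rw [h2] at h1
    have h3 : (∑ l, ‖c i l‖ ^ 2 : ℝ) = 1 := by exact_mod_cast h1
    exact h3.le
  have hpot := potential C H c hc1 (fun t ht i => hc0 t ht i) s le_rfl
  have hG : G C H s = ∏ t ∈ Hᶜ, (C.gate t).growth := by
    unfold G
    rw [← Finset.prod_subset (Finset.subset_univ Hᶜ)]
    · refine Finset.prod_congr rfl fun t ht => ?_
      rw [if_pos ⟨t.2, Finset.mem_compl.mp ht⟩]
    · intro t _ ht
      rw [if_neg]
      intro h
      exact ht (Finset.mem_compl.mpr h.2)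
  rw [← hG]
  let a : Fin k → Fin n → ℂ := fun i m => pr (c i) (co C (C.out m))
  have ha : ∀ i i', ∑ m, a i m * (starRingEnd ℂ) (a i' m) = if i = i' then (n : ℂ) else 0 := by
    intro i i'
    have e1 : ∀ i m, a i m = ∑ l : Fin n, (starRingEnd ℂ) (c i l) * zt n ^ (m.val * l.val) := by
      intro i m
      simp only [a, pr]
      refine Finset.sum_congr rfl fun l _ => ?_
      rw [co_out C hC m l]
      rfl
    have e2 : ∀ m, a i m * (starRingEnd ℂ) (a i' m) = ∑ l : Fin n, ∑ l' : Fin n,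
        ((starRingEnd ℂ) (c i l) * c i' l') *
          (zt n ^ (m.val * l.val) * (starRingEnd ℂ) (zt n ^ (m.val * l'.val))) := by
      intro m
      rw [e1, e1, map_sum, Finset.sum_mul_sum]
      refine Finset.sum_congr rfl fun l _ => Finset.sum_congr rfl fun l' _ => ?_
      rw [map_mul, Complex.conj_conj]
      ring
    simp_rw [e2]
    rw [Finset.sum_comm]
    have e3 : ∀ l : Fin n, ∑ m : Fin n, ∑ l' : Fin n, ((starRingEnd ℂ) (c i l) * c i' l') *
          (zt n ^ (m.val * l.val) * (starRingEnd ℂ) (zt n ^ (m.val * l'.val))) =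
        ((starRingEnd ℂ) (c i l) * c i' l) * n := by
      intro l
      rw [Finset.sum_comm]
      simp_rw [← Finset.mul_sum, orth hn l]
      simp
    simp_rw [e3]
    rw [← Finset.sum_mul, hc i i']
    split_ifs <;> simp
  have hs := sum_det_sq a (n : ℂ) ha
  have h4 : ∑ f : Fin k → Fin n, ‖det (Matrix.of fun i j => a i (f j))‖ ^ 2 =
      (k ! : ℝ) * (n : ℝ) ^ k := by
    have h5 : ((∑ f : Fin k → Fin n, ‖det (Matrix.of fun i j => a i (f j))‖ ^ 2 : ℝ) : ℂ) =
        (((k ! : ℝ) * (n : ℝ) ^ k : ℝ) : ℂ) := by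
      push_cast
      rw [← hs]
      refine Finset.sum_congr rfl fun f _ => ?_
      rw [Complex.mul_conj, Complex.normSq_eq_norm_sq]
      push_cast
      rfl
    exact_mod_cast h5
  have h6 : ∀ f : Fin k → Fin n, ‖det (Matrix.of fun i j => a i (f j))‖ ^ 2 ≤ G C H s ^ 2 := by
    intro f
    have := hpot (fun j => (C.out (f j)).val) fun j => (C.out (f j)).2
    exact pow_le_pow_left₀ (norm_nonneg _) this 2
  have h7 : (k ! : ℝ) * (n : ℝ) ^ k ≤ (n : ℝ) ^ k * G C H s ^ 2 := by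
    rw [← h4]
    calc ∑ f : Fin k → Fin n, ‖det (Matrix.of fun i j => a i (f j))‖ ^ 2
        ≤ ∑ _f : Fin k → Fin n, G C H s ^ 2 := Finset.sum_le_sum fun f _ => h6 f
      _ = (n : ℝ) ^ k * G C H s ^ 2 := by simp
  have h8 : (0 : ℝ) < (n : ℝ) ^ k := by positivity
  nlinarith

end P344
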