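import Mathlib

/-!
# P344: linear circuits for the discrete Fourier transform: the model
-/

namespace P344

/-- A gate whose arguments are among `m` previously computed values: `u + v`, `u - v` or `c u`
for a fixed complex number `c`. -/
inductive Gate (m : ℕ) where
  | add (i j : Fin m)
  | sub (i j : Fin m)
  | smul (c : ℂ) (i : Fin m)

/-- the value computed by a gate from the previously computed values `v` -/
noncomputable def Gate.eval {m : ℕ} {V : Type} [AddCommGroup V] [Module ℂ V] (v : Fin m → V) :
    Gate m → V
  | .add i j => v i + v j
  | .sub i j => v i - v j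
  | .smul c i => c • v i

/-- A linear circuit with `n` inputs and `s` gates. The computed values are, in this order, the
`n` inputs, the constant `0` and the values of the gates `0, 1, ..., s - 1`; gate `t` may use the
`n + 1 + t` values computed before it. Output `j` is the computed value number `out j`. -/
structure Circuit (n s : ℕ) where
  gate : (t : Fin s) → Gate (n + 1 + t)
  out : Fin n → Fin (n + 1 + s)

/-- The first `n + 1 + t` computed values on the inputs `x`. -/
noncomputable def Circuit.vals {n s : ℕ} (C : Circuit n s) {V : Type} [AddCommGroup V]
    [Module ℂ V] (x : Fin n → V) : (t : ℕ) → t ≤ s → Fin (n + 1 + t) → V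
  | 0, _ => Fin.snoc (α := fun _ => V) x 0
  | t + 1, h => Fin.snoc (α := fun _ => V) (C.vals x t (Nat.le_of_succ_le h))
      ((C.gate ⟨t, h⟩).eval (C.vals x t (Nat.le_of_succ_le h)))

/-- The circuit computes the unnormalised discrete Fourier transform of order `n`. -/
def Circuit.IsDFT {n s : ℕ} (C : Circuit n s) : Prop :=
  ∀ (x : Fin n → ℂ) (j : Fin n), C.vals x s le_rfl (C.out j) =
    ∑ k : Fin n, Complex.exp (2 * Real.pi * Complex.I / n) ^ (j.val * k.val) * x k

/-- `L(n)`: the least number of gates of a linear circuit for the transform of order `n`. -/
noncomputable def L (n : ℕ) : ℕ := sInf {s | ∃ C : Circuit n s, C.IsDFT}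

/-- the growth factor of a gate: `2` for additions and subtractions, `max 1 |c|` for the
multiplication by `c` -/
noncomputable def Gate.growth {m : ℕ} : Gate m → ℝ
  | .add _ _ => 2
  | .sub _ _ => 2
  | .smul c _ => max 1 ‖c‖

/-- the gate is an addition or a subtraction -/
def Gate.IsAdd {m : ℕ} : Gate m → Prop
  | .add _ _ => True
  | .sub _ _ => True
  | .smul _ _ => False

/-- the gate is a multiplication by a number of modulus greater than `B` -/
def Gate.IsBig {m : ℕ} (B : ℝ) : Gate m → Prop
  | .add _ _ => False
  | .sub _ _ => False
  | .smul c _ => B < ‖c‖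

end P344
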