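import Vale.Agent.P344.Basic

/-! # P344: the volume argument, with arbitrary gates removed -/

namespace P344

open Finset Matrix
open scoped Nat ComplexOrder

/-! ### sum of the squared minors -/

theorem sum_det_sq {k n : ℕ} (a : Fin k → Fin n → ℂ) (N : ℂ)
    (ha : ∀ i i', ∑ m, a i m * (starRingEnd ℂ) (a i' m) = if i = i' then N else 0) :
    ∑ f : Fin k → Fin n, (det (Matrix.of fun i j => a i (f j))) *
      (starRingEnd ℂ) (det (Matrix.of fun i j => a i (f j))) = (k ! : ℂ) * N ^ k := by
  have h1 : ∀ f : Fin k → Fin n, (det (Matrix.of fun i j => a i (f j))) *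
      (starRingEnd ℂ) (det (Matrix.of fun i j => a i (f j))) =
      ∑ σ : Equiv.Perm (Fin k), ∑ σ' : Equiv.Perm (Fin k),
        ((Equiv.Perm.sign σ : ℤ) : ℂ) * ((Equiv.Perm.sign σ' : ℤ) : ℂ) *
          ∏ j, (a (σ j) (f j) * (starRingEnd ℂ) (a (σ' j) (f j))) := by
    intro f
    rw [det_apply, map_sum, Finset.sum_mul_sum]
    refine Finset.sum_congr rfl fun σ _ => Finset.sum_congr rfl fun σ' _ => ?_
    rw [Finset.prod_mul_distrib]
    simp only [Units.smul_def, zsmul_eq_mul, map_mul, map_prod, Matrix.of_apply, map_intCast]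
    ring
  simp_rw [h1]
  rw [Finset.sum_comm]
  have h2 : ∀ σ : Equiv.Perm (Fin k), ∑ f : Fin k → Fin n, ∑ σ' : Equiv.Perm (Fin k),
      ((Equiv.Perm.sign σ : ℤ) : ℂ) * ((Equiv.Perm.sign σ' : ℤ) : ℂ) *
          ∏ j, (a (σ j) (f j) * (starRingEnd ℂ) (a (σ' j) (f j))) = N ^ k := by
    intro σ
    rw [Finset.sum_comm]
    have h3 : ∀ σ' : Equiv.Perm (Fin k), ∑ f : Fin k → Fin n,
        ((Equiv.Perm.sign σ : ℤ) : ℂ) * ((Equiv.Perm.sign σ' : ℤ) : ℂ) *
          ∏ j, (a (σ j) (f j) * (starRingEnd ℂ) (a (σ' j) (f j))) =
        if σ = σ' then N ^ k else 0 := by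
      intro σ'
      rw [← Finset.mul_sum]
      have h4 : ∑ f : Fin k → Fin n, ∏ j, (a (σ j) (f j) * (starRingEnd ℂ) (a (σ' j) (f j))) =
          ∏ j, ∑ m, (a (σ j) m * (starRingEnd ℂ) (a (σ' j) m)) := by
        rw [Finset.prod_univ_sum]
        simp
      rw [h4]
      simp_rw [ha]
      split_ifs with h
      · subst h
        simp
        rw [← Int.cast_mul, ← Units.val_mul, Int.units_mul_self]
        simp
      · have : ∃ j, σ j ≠ σ' j := by
          by_contra hc
          push Not at hc
          exact h (Equiv.ext hc)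
        obtain ⟨j, hj⟩ := this
        rw [Finset.prod_eq_zero (Finset.mem_univ j) (if_neg hj), mul_zero]
    simp_rw [h3]
    simp
  simp_rw [h2]
  simp [Fintype.card_perm]

/-! ### a bound for minors of matrices with small rows -/

theorem det_le_one {k : ℕ} (M : Matrix (Fin k) (Fin k) ℂ) (h : ∀ i, ∑ j, ‖M i j‖ ^ 2 ≤ 1) :
    ‖M.det‖ ≤ 1 := by
  have hp : (M * Mᴴ).PosSemidef := posSemidef_self_mul_conjTranspose M
  have hdet : (M * Mᴴ).det = ((‖M.det‖ ^ 2 : ℝ) : ℂ) := by
    rw [det_mul, det_conjTranspose]
    simp [Complex.mul_conj, Complex.normSq_eq_norm_sq]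
  have h1 := hp.1.det_eq_prod_eigenvalues
  have h2 := hp.1.trace_eq_sum_eigenvalues
  have htr : (M * Mᴴ).trace = ((∑ i, ∑ j, ‖M i j‖ ^ 2 : ℝ) : ℂ) := by
    simp [trace, Matrix.mul_apply, Complex.mul_conj, Complex.normSq_eq_norm_sq]
  have h3 : (‖M.det‖ ^ 2 : ℝ) = ∏ i, hp.1.eigenvalues i := by
    rw [hdet, ← RCLike.ofReal_prod] at h1
    exact Complex.ofReal_injective h1
  have h4 : ∑ i, hp.1.eigenvalues i ≤ k := by
    rw [htr] at h2
    have h5 : (∑ i, ∑ j, ‖M i j‖ ^ 2 : ℝ) = ∑ i, hp.1.eigenvalues i := by
      rw [← RCLike.ofReal_sum] at h2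
      exact Complex.ofReal_injective h2
    rw [← h5]
    calc (∑ i, ∑ j, ‖M i j‖ ^ 2 : ℝ) ≤ ∑ _i : Fin k, (1 : ℝ) := Finset.sum_le_sum fun i _ => h i
      _ = k := by simp
  have h6 : ∏ i, hp.1.eigenvalues i ≤ 1 := by
    calc ∏ i, hp.1.eigenvalues i ≤ ∏ i, Real.exp (hp.1.eigenvalues i - 1) :=
          Finset.prod_le_prod (fun i _ => hp.eigenvalues_nonneg i) fun i _ => by
            have := Real.add_one_le_exp (hp.1.eigenvalues i - 1)
            linarith
      _ = Real.exp (∑ i, (hp.1.eigenvalues i - 1)) := (Real.exp_sum _ _).symm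
      _ ≤ 1 := by
          rw [Real.exp_le_one_iff, Finset.sum_sub_distrib]
          simp
          linarith
  rw [← h3] at h6
  nlinarith [norm_nonneg M.det]

/-! ### the potential -/

section

variable {n s k : ℕ} (C : Circuit n s)

theorem growth_ge {m : ℕ} (g : Gate m) : 1 ≤ g.growth := by
  cases g <;> simp [Gate.growth]

/-- product of the growth factors of the gates before `t` outside `H` -/
noncomputable def G (H : Finset (Fin s)) (t : ℕ) : ℝ :=
  ∏ u : Fin s, if u.1 < t ∧ u ∉ H then (C.gate u).growth else 1

theorem G_zero (H : Finset (Fin s)) : G C H 0 = 1 := by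
  unfold G
  simp

theorem G_one_le (H : Finset (Fin s)) (t : ℕ) : 1 ≤ G C H t := by
  unfold G
  refine Finset.prod_induction _ (fun x : ℝ => 1 ≤ x)
    (fun a b ha hb => one_le_mul_of_one_le_of_one_le ha hb) le_rfl fun u _ => ?_
  split_ifs
  · exact growth_ge _
  · exact le_rfl

theorem G_succ (H : Finset (Fin s)) (t : Fin s) :
    G C H (t + 1) = G C H t * (if t ∈ H then 1 else (C.gate t).growth) := by
  unfold G
  have e : ∀ u : Fin s, (if u.1 < t.1 + 1 ∧ u ∉ H then (C.gate u).growth else 1) =
      (if u.1 < t.1 ∧ u ∉ H then (C.gate u).growth else 1) *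
        (if u = t then (if t ∈ H then 1 else (C.gate t).growth) else 1) := by
    intro u
    by_cases h1 : u = t
    · subst h1
      simp
    · have h2 : u.1 ≠ t.1 := fun h => h1 (Fin.ext h)
      have h3 : u.1 < t.1 + 1 ↔ u.1 < t.1 := by omega
      simp [h1, h3]
  simp_rw [e]
  rw [Finset.prod_mul_distrib]
  simp

/-- the pairing of a coefficient vector with a fixed vector -/
noncomputable def pr (c : Fin n → ℂ) (v : Fin n → ℂ) : ℂ := ∑ l, (starRingEnd ℂ) (c l) * v l

theorem pr_add (c v w : Fin n → ℂ) : pr c (v + w) = pr c v + pr c w := by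
  simp [pr, mul_add, Finset.sum_add_distrib]

theorem pr_sub (c v w : Fin n → ℂ) : pr c (v - w) = pr c v - pr c w := by
  simp [pr, mul_sub, Finset.sum_sub_distrib]

theorem pr_smul (c v : Fin n → ℂ) (a : ℂ) : pr c (a • v) = a * pr c v := by
  simp only [pr, Pi.smul_apply, smul_eq_mul, Finset.mul_sum]
  exact Finset.sum_congr rfl fun l _ => by ring

theorem pr_zero (c : Fin n → ℂ) : pr c 0 = 0 := by simp [pr]

/-- the matrix of a tuple of computed values -/
noncomputable def Mx (c : Fin k → Fin n → ℂ) (f : Fin k → ℕ) : Matrix (Fin k) (Fin k) ℂ :=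
  Matrix.of fun i j => pr (c i) (co C (f j))

theorem Mx_update (c : Fin k → Fin n → ℂ) (f : Fin k → ℕ) (j : Fin k) (p : ℕ) :
    Mx C c (Function.update f j p) = (Mx C c f).updateCol j (fun i => pr (c i) (co C p)) := by
  ext i l
  rw [Matrix.updateCol_apply]
  unfold Mx
  simp only [Matrix.of_apply]
  by_cases h : l = j
  · subst h; simp
  · simp [h]

theorem potential (H : Finset (Fin s)) (c : Fin k → Fin n → ℂ)
    (hc : ∀ i, ∑ l, ‖c i l‖ ^ 2 ≤ 1) (hH : ∀ t ∈ H, ∀ i, pr (c i) (co C (n + 1 + t)) = 0) :
    ∀ t : ℕ, t ≤ s → ∀ f : Fin k → ℕ, (∀ j, f j < n + 1 + t) →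
      ‖(Mx C c f).det‖ ≤ G C H t := by
  intro t
  induction t with
  | zero =>
    intro _ f hf
    rw [G_zero]
    by_cases h0 : ∃ j, f j = n
    · obtain ⟨j, hj⟩ := h0
      rw [Matrix.det_eq_zero_of_column_eq_zero j fun i => by
        simp [Mx, hj, co_zero, pr_zero]]
      simp
    · push Not at h0
      have hf' : ∀ j, f j < n := fun j => by
        have := hf j; have := h0 j; omega
      by_cases hinj : Function.Injective f
      · refine det_le_one _ fun i => ?_
        have e : ∀ j, Mx C c f i j = (starRingEnd ℂ) (c i ⟨f j, hf' j⟩) := by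
          intro j
          have := co_input C ⟨f j, hf' j⟩
          simp only at this
          simp [Mx, this, pr, Pi.single_apply]
        simp_rw [e]
        have hinj' : Function.Injective fun j : Fin k => (⟨f j, hf' j⟩ : Fin n) := by
          intro a b hab
          exact hinj (Fin.mk.inj_iff.mp hab)
        calc ∑ j, ‖(starRingEnd ℂ) (c i ⟨f j, hf' j⟩)‖ ^ 2 = ∑ j, ‖c i ⟨f j, hf' j⟩‖ ^ 2 := by
              simp
          _ = ∑ l ∈ Finset.univ.image (fun j : Fin k => (⟨f j, hf' j⟩ : Fin n)), ‖c i l‖ ^ 2 := by
              rw [Finset.sum_image fun a _ b _ h => hinj' h]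
          _ ≤ ∑ l, ‖c i l‖ ^ 2 :=
              Finset.sum_le_sum_of_subset_of_nonneg (Finset.subset_univ _)
                fun _ _ _ => by positivity
          _ ≤ 1 := hc i
      · unfold Function.Injective at hinj
        push Not at hinj
        obtain ⟨a, b, hab, hne⟩ := hinj
        rw [Matrix.det_zero_of_column_eq hne fun i => by simp [Mx, hab]]
        simp
  | succ t ih =>
    intro ht f hf
    have ht' : t < s := by omega
    have hG := G_succ C H ⟨t, ht'⟩
    simp only at hG
    have hpos : 0 < G C H t := lt_of_lt_of_le one_pos (G_one_le C H t)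
    have hmono : G C H t ≤ G C H (t + 1) := by
      rw [hG]
      refine le_mul_of_one_le_right hpos.le ?_
      split_ifs
      · exact le_rfl
      · exact growth_ge _
    by_cases h0 : ∃ j, f j = n + 1 + t
    · obtain ⟨j, hj⟩ := h0
      by_cases h1 : ∃ j', j' ≠ j ∧ f j' = n + 1 + t
      · obtain ⟨j', hne, hj'⟩ := h1
        rw [Matrix.det_zero_of_column_eq hne fun i => by simp [Mx, hj, hj']]
        simp
        exact hpos.le.trans hmono
      · push Not at h1
        have hlt : ∀ l, l ≠ j → f l < n + 1 + t := fun l hl => by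
          have := hf l; have := h1 l hl; omega
        have hup : ∀ p, p < n + 1 + t → ∀ l, Function.update f j p l < n + 1 + t := by
          intro p hp l
          by_cases hl : l = j
          · subst hl; simpa using hp
          · simpa [hl] using hlt l hl
        have hMf : Mx C c f = (Mx C c f).updateCol j (fun i => pr (c i) (co C (n + 1 + t))) := by
          rw [← hj, ← Mx_update, Function.update_eq_self]
        by_cases hH' : (⟨t, ht'⟩ : Fin s) ∈ H
        · rw [Matrix.det_eq_zero_of_column_eq_zero j fun i => by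
            have := hH _ hH' i
            simp only at this
            simp [Mx, hj, this]]
          simp
          exact hpos.le.trans hmono
        · rw [hG, if_neg hH']
          have hg := co_gate C ⟨t, ht'⟩
          simp only at hg
          rw [hMf, hg]
          cases hgt : C.gate ⟨t, ht'⟩ with
          | add a b =>
            simp only [Gate.eval, Gate.growth]
            have e : (fun i => pr (c i) (co C a + co C b)) =
                (fun i => pr (c i) (co C a)) + fun i => pr (c i) (co C b) := by
              funext i; exact pr_add _ _ _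
            rw [e, Matrix.det_updateCol_add, ← Mx_update, ← Mx_update]
            have h2 := ih (by omega) _ (hup a a.2)
            have h3 := ih (by omega) _ (hup b b.2)
            refine (norm_add_le _ _).trans ?_
            linarith
          | sub a b =>
            simp only [Gate.eval, Gate.growth]
            have e : (fun i => pr (c i) (co C a - co C b)) =
                (fun i => pr (c i) (co C a)) + (-1 : ℂ) • fun i => pr (c i) (co C b) := by
              funext i
              rw [pr_sub]
              simp [sub_eq_add_neg]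
            rw [e, Matrix.det_updateCol_add, Matrix.det_updateCol_smul, ← Mx_update,
              ← Mx_update]
            have h2 := ih (by omega) _ (hup a a.2)
            have h3 := ih (by omega) _ (hup b b.2)
            refine (norm_add_le _ _).trans ?_
            rw [norm_mul, norm_neg, norm_one, one_mul]
            linarith
          | smul z a =>
            simp only [Gate.eval, Gate.growth]
            have e : (fun i => pr (c i) (z • co C a)) = z • fun i => pr (c i) (co C a) := by
              funext i; rw [pr_smul]; rfl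
            rw [e, Matrix.det_updateCol_smul, ← Mx_update, norm_mul]
            have h2 := ih (by omega) _ (hup a a.2)
            have h3 := mul_le_mul (le_max_right 1 ‖z‖) h2 (norm_nonneg _) (by positivity)
            linarith
    · push Not at h0
      exact (ih (by omega) f fun j => by have := hf j; have := h0 j; omega).trans hmono

end

end P344
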